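import Vale.Agent.P233G30.Hess

/-! P233G: the covariant derivative. -/

set_option linter.all false

open MeasureTheory Filter Topology Set
open scoped ENNReal NNReal InnerProductSpace

universe u

namespace Vale.Agent.P233G

open Vale.Agent.P233

variable {M : Type u} [MetricSpace M] [MeasurableSpace M]
  {U : Measure M → (M → ℝ) → (M → ℝ) → Prop} {m : Measure M}
  {H : Type u} [NormedAddCommGroup H] [InnerProductSpace ℝ H]
  [SecondCountableTopology M] [BorelSpace M] {T : Tan U m H} {κ : ℝ} {Gr : L0 m → M → E1}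
  {J : H →L[ℝ] Lp E1 2 m} {σ : L0 m → M → E2}

namespace Kit

variable (k : Kit T κ Gr J σ) {l : List (L0 m × L0 m)}
include k

theorem phi (hl : (sob m).IsTestV l) {e g : L0 m} (he : e ∈ (sob m).Test) (hg : g ∈ (sob m).Test) :
    (l.map fun q => q.1 * (sob m).Γ q.2 e).sum ∈ (sob m).A ∧
    (sob m).Γ (l.map fun q => q.1 * (sob m).Γ q.2 e).sum g =
      cvf l g e + (l.map fun q => q.1 * (sob m).hess e q.2 g).sum := by
  have hC := k.c.hC
  have hB := k.c.hB
  have gW := hC.tW hg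
  have eW := hC.tW he
  induction l with
  | nil =>
    have h0 : (sob m).Γ 0 g = 0 := by
      have := hC.smul_left 0 0 hC.zero_mem g gW
      rwa [zero_smul, zero_smul] at this
    refine ⟨⟨by simpa using hC.zero_mem, by simpa using P233.mem_zero⟩, ?_⟩
    simp [cvf, h0]
  | cons q l ih =>
    have hq := hl q List.mem_cons_self
    obtain ⟨i1, i2⟩ := ih fun r hr => hl r (List.mem_cons_of_mem _ hr)
    have qA := hC.test_A hq.1
    have dA := hC.Γ_mem hB hq.2 he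
    have dW := hC.tW hq.2
    have pA := hC.toIsDir.mul_mem_A qA dA
    simp only [cvf, List.map_cons, List.sum_cons] at i2 ⊢
    refine ⟨hC.toIsDir.A_add pA i1, ?_⟩
    rw [hC.add_left _ pA.1 _ i1.1 _ gW, i2, hC.toIsDir.Γ_mul_left qA dA gW,
      hC.symm _ dA.1 _ gW, hC.symm _ qA.1 _ gW]
    have e1 : (sob m).Γ g ((sob m).Γ q.2 e) = (sob m).hess q.2 g e + (sob m).hess e q.2 g := by
      unfold Calc.hess
      rw [hC.symm e eW g gW, hC.symm e eW q.2 dW]
      algebra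
    rw [e1]
    ring

theorem cvf_mem2 (hl : (sob m).IsTestV l) {g e : L0 m} (hg : g ∈ (sob m).Test)
    (he : e ∈ (sob m).Test) : MemLp (cvf l g e) 2 m := by
  have hC := k.c.hC
  have hB := k.c.hB
  refine mem_ls fun q hq => mem_add ?_ ?_
  · exact mem_mul_top (hC.Γ_mem hB hg (hl q hq).1).2 (hC.memLp _ (hC.Γ_mem hB (hl q hq).2 he).1)
  · exact mem_mul_top (hC.test_A (hl q hq).1).2 (hC.hess_mem2 hB (hl q hq).2 hg he)

theorem cov_rhs (hl : (sob m).IsTestV l) {g e h : L0 m} (hg : g ∈ (sob m).Test)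
    (he : e ∈ (sob m).Test) (hh : h ∈ (sob m).Test) :
    ∫ x, (-(T.ip (T.io l) (T.grad e) x * T.div (T.sm h (T.grad g)) x)
        - h x * T.hess e (T.io l) (T.grad g) x) ∂m = I (h * cvf l g e) := by
  have hC := k.c.hC
  have hB := k.c.hB
  have h2 := hC.memLp _ (hC.tW hh)
  have e1 : T.ip (T.io l) (T.grad e) = (l.map fun q => q.1 * (sob m).Γ q.2 e).sum := by
    rw [k.b.io_left (k.c.top hl)]
    exact ls_congr fun q hq => by rw [k.b.gg _ (hC.tW (hl q hq).2) _ (hC.tW he)]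
  have e2 : T.hess e (T.io l) (T.grad g) = (l.map fun q => q.1 * (sob m).hess e q.2 g).sum := by
    rw [(k.hess_rep he).io_left k.r (k.c.top hl)]
    exact ls_congr fun q hq => by rw [k.hess_gg he (hl q hq).2 hg]
  obtain ⟨p1, p2⟩ := k.phi hl he hg
  have s2 : MemLp ((l.map fun q => q.1 * (sob m).hess e q.2 g).sum : L0 m) 2 m :=
    mem_ls fun q hq => mem_mul_top (hC.test_A (hl q hq).1).2 (hC.hess_mem2 hB he (hl q hq).2 hg)
  have i1 := Bas.ibp1 k.c hh hg p1.1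
  have m1 := mem_mul_22 (hC.memLp _ p1.1) (k.D2 hh hg)
  have m2 := mem_mul_22 h2 s2
  rw [p2, mul_add, I_add (mem_mul_22 h2 (k.cvf_mem2 hl hg he)) m2] at i1
  rw [e1, e2, k.b.div_one k.c hh hg, integral_sub, integral_neg, int_mul, int_mul]
  · linarith
  · exact ((int_of_mem m1).congr (mul_ae _ _)).neg
  · exact (int_of_mem m2).congr (mul_ae _ _)

theorem isCov_iff (hl : (sob m).IsTestV l) {B : H → H → L0 m} :
    T.IsCov (T.io l) B ↔ T.IsTen B ∧ ∀ a ∈ (sob m).Test, ∀ c ∈ (sob m).Test,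
      B (T.grad a) (T.grad c) = cvf l a c := by
  unfold Tan.IsCov
  simp only [k.b.test_iff k.c]
  refine and_congr_right fun hA => ⟨fun h a ha c hc => ?_, fun h g e s hg he hs => ?_⟩
  · refine (k.eq_iff_test (ten_mem2 hA (k.gtop ha) (k.gtop hc))
      (k.cvf_mem2 hl ha hc)).1 fun s hs => ?_
    have := h a c s ha hc hs
    rwa [k.cov_rhs hl ha hc hs, int_mul] at this
  · rw [k.cov_rhs hl hg he hs, int_mul, h g hg e he]

theorem tm_mem2 {a c : L0 m} (ha : a ∈ (sob m).Test) (hc : c ∈ (sob m).Test) :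
    MemLp (fun x => tm (Gr a x) (Gr c x)) 2 m := by
  have hC := k.c.hC
  have a2 := k.c.hG.mem a (hC.tW ha)
  have c2 := k.c.hG.mem c (hC.tW hc)
  obtain ⟨K, hK⟩ := mem_top_iff.1 (hC.test_Γ_top hc)
  refine (a2.norm.const_mul √|K|).mono (tm.aestronglyMeasurable_comp₂ a2.1 c2.1) ?_
  filter_upwards [hK, k.c.hG.inner c (hC.tW hc) c (hC.tW hc)] with x a1 a3
  rw [norm_tm, Real.norm_eq_abs, abs_of_nonneg (by positivity), mul_comm]
  refine mul_le_mul_of_nonneg_right (Real.le_sqrt_of_sq_le ?_) (norm_nonneg _)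
  rw [← real_inner_self_eq_norm_sq, a3]
  exact (le_abs_self _).trans (a1.trans (le_abs_self K))

theorem bet_mem2 (hl : (sob m).IsTestV l) : MemLp (bet Gr σ l) 2 m := by
  induction l with
  | nil => exact MemLp.zero
  | cons q l ih =>
    have hq := hl q List.mem_cons_self
    have h1 := (k.tm_mem2 hq.1 hq.2).add
      ((k.sm _ hq.2).smul (p := ∞) (r := 2) (k.c.hC.test_A hq.1).2)
    exact h1.add (ih fun r hr => hl r (List.mem_cons_of_mem _ hr))

theorem bet_inner (hl : (sob m).IsTestV l) {a c : L0 m} (ha : a ∈ (sob m).Test)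
    (hc : c ∈ (sob m).Test) :
    ∀ᵐ x ∂m, ⟪bet Gr σ l x, tm (Gr a x) (Gr c x)⟫_ℝ = cvf l a c x := by
  have hC := k.c.hC
  unfold bet cvf
  refine inner_ls_left (m := m) (L := l)
    (V := fun (q : L0 m × L0 m) x => tm (Gr q.1 x) (Gr q.2 x) + q.1 x • σ q.2 x)
    (w := fun x => tm (Gr a x) (Gr c x))
    (F := fun q => (sob m).Γ a q.1 * (sob m).Γ q.2 c + q.1 * (sob m).hess q.2 a c)
    fun q hq => ?_
  have hq' := hl q hq
  filter_upwards [k.si _ hq'.2 a ha c hc, k.c.hG.inner a (hC.tW ha) _ (hC.tW hq'.1),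
    k.c.hG.inner _ (hC.tW hq'.2) c (hC.tW hc),
    add_ae ((sob m).Γ a q.1 * (sob m).Γ q.2 c) (q.1 * (sob m).hess q.2 a c),
    mul_ae ((sob m).Γ a q.1) ((sob m).Γ q.2 c), mul_ae q.1 ((sob m).hess q.2 a c)]
    with x a1 a2 a3 a4 a5 a6
  rw [a4, a5, a6, inner_add_left, inner_tm, real_inner_smul_left, a1, a3, real_inner_comm, a2]

theorem cov_ex (hl : (sob m).IsTestV l) : ∃ B, T.IsCov (T.io l) B ∧ Rep J B (bet Gr σ l) ∧
    ∀ X : H, MemLp (T.ip X X) ∞ m →
      (∃ V, ∀ Z, T.ip V Z = B X Z) ∧ ∃ V, ∀ Z, T.ip V Z = B Z X := by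
  obtain ⟨A, h1, h2, h3⟩ := k.tn _ (k.bet_mem2 hl)
  refine ⟨A, (k.isCov_iff hl).2 ⟨h1, fun a ha c hc => ?_⟩, h2, h3⟩
  rw [eq_iff_ae]
  filter_upwards [k.rep_grad h2 ha hc, k.bet_inner hl ha hc] with x a1 a2
  rw [a1, a2]

theorem cov_unique (hl : (sob m).IsTestV l) {A A' : H → H → L0 m}
    (h : T.IsCov (T.io l) A) (h' : T.IsCov (T.io l) A') : A = A' := by
  rw [k.isCov_iff hl] at h h'
  exact k.un A A' h.1 h'.1 fun a ha c hc => (h.2 a ha c hc).trans (h'.2 a ha c hc).symm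

theorem isCov (hl : (sob m).IsTestV l) : T.IsCov (T.io l) (T.cov (T.io l)) :=
  pick_spec (let ⟨A, h, _⟩ := k.cov_ex hl; ⟨A, h⟩)

theorem cov_spec (hl : (sob m).IsTestV l) : Rep J (T.cov (T.io l)) (bet Gr σ l) ∧
    ∀ X : H, MemLp (T.ip X X) ∞ m → (∃ V, ∀ Z, T.ip V Z = T.cov (T.io l) X Z) ∧
      ∃ V, ∀ Z, T.ip V Z = T.cov (T.io l) Z X := by
  obtain ⟨A, h1, h2⟩ := k.cov_ex hl
  rwa [k.cov_unique hl (k.isCov hl) h1]

variable {X Y Z : List (L0 m × L0 m)}

theorem cov_io (hX : (sob m).IsTestV X) (hY : (sob m).IsTestV Y) (hZ : (sob m).IsTestV Z) :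
    T.cov (T.io Y) (T.io X) (T.io Z) = (sob m).nab X Y Z := by
  have h := (k.cov_spec hY).1
  rw [h.io_left k.r (k.c.top hX)]
  unfold Calc.nab
  refine ls_congr fun p hp => ?_
  rw [h.io_right k.r (k.c.top hZ), ls_comm, ← ls_mul]
  refine ls_congr fun r hr => ?_
  rw [((k.isCov_iff hY).1 (k.isCov hY)).2 _ (hX p hp).2 _ (hZ r hr).2, ← mul_assoc]
  unfold cvf
  rw [← ls_mul]

theorem nab_spec (hX : (sob m).IsTestV X) (hY : (sob m).IsTestV Y) (W : H) :
    T.ip (T.nab (T.io X) (T.io Y)) W = T.cov (T.io Y) (T.io X) W :=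
  pick_spec (P := fun V => ∀ Z, T.ip V Z = T.cov (T.io Y) (T.io X) Z)
    ((k.cov_spec hY).2 _ (k.b.ip_io_top k.c hX hX)).1 W

theorem nab_io (hX : (sob m).IsTestV X) (hY : (sob m).IsTestV Y) (hZ : (sob m).IsTestV Z) :
    T.ip (T.nab (T.io X) (T.io Y)) (T.io Z) = (sob m).nab X Y Z := by
  rw [k.nab_spec hX hY, k.cov_io hX hY hZ]

end Kit

end Vale.Agent.P233G
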