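import Vale.Agent.P242W.Defs
import Vale.Agent.P233Z.DefsM

/-!
# P233: Gigli's calculus as Gigli defines it
Weak upper gradients, the tangent module, divergence and Laplacian by duality, Hessian and covariant
derivative as square integrable tensors with their defining identities.
-/

open MeasureTheory Set
open scoped ENNReal InnerProductSpace

universe u

namespace Vale.Agent.P233G

open Vale.Agent.P242W (IsMin Ch)
open Vale.Agent.P233.T (pick)

variable {M : Type u} [MetricSpace M] [MeasurableSpace M]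

/-- `L⁰(m)`: measurable functions modulo equality almost everywhere. -/
abbrev L0 (m : Measure M) : Type u := M →ₘ[m] ℝ

variable (U : Measure M → (M → ℝ) → (M → ℝ) → Prop) (m : Measure M)

/-- `f ∈ W^{1,2}(M)`: `f` (in `L²`) has a weak upper gradient (in `L²`) in the sense of `U`. -/
def W (f : L0 m) : Prop := ∃ G, U m f G

/-- `M` is nonempty, `m` has full support and is finite on bounded sets, and the Cheeger energy is
a quadratic form on `L²(m)`. -/
structure IsHilb : Prop where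
  ne : Nonempty M
  full : m.IsOpenPosMeasure
  fin : ∀ B, Bornology.IsBounded B → m B < ∞
  quadratic : ∀ f g, MemLp f 2 m → MemLp g 2 m →
    Ch U m (f + g) + Ch U m (f - g) = 2 * Ch U m f + 2 * Ch U m g

/-- The tangent module `L²(TM)`: a Hilbert space `H` which is an `L²`-normed `L^∞`-module (action
`sm a X = a X`, pointwise inner product `ip X Y = ⟨X,Y⟩`), with a linear gradient
`∇ : W^{1,2} → H` such that `|∇f|` is the minimal weak upper gradient of `f` and the gradients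
generate the module. -/
structure Tan (H : Type u) [NormedAddCommGroup H] [InnerProductSpace ℝ H] where
  sm : L0 m → H → H
  ip : H → H → L0 m
  grad : L0 m → H
  complete : CompleteSpace H
  int : ∀ X Y, Integrable (ip X Y) m ∧ ⟪X, Y⟫_ℝ = ∫ x, ip X Y x ∂m
  symm : ∀ X Y, ip X Y = ip Y X
  ip_sm : ∀ a : L0 m, MemLp a ∞ m → ∀ X Y, ip (sm a X) Y = a * ip X Y
  lin : ∀ f g, W U m f → W U m g → ∀ c : ℝ, grad (f + c • g) = grad f + c • grad g
  norm : ∀ (f : L0 m) S, IsMin U m f S → ∀ᵐ x ∂m, ip (grad f) (grad f) x = S x ^ 2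
  gen : Dense (Submodule.span ℝ
    {X | ∃ a f : L0 m, MemLp a ∞ m ∧ W U m f ∧ X = sm a (grad f)} : Set H)

namespace Tan

variable {U m} {H : Type u} [NormedAddCommGroup H] [InnerProductSpace ℝ H] (T : Tan U m H)

/-- `h = div X`: `h ∈ L²` and `∫ ⟨∇g, X⟩ dm = -∫ g h dm` for all `g ∈ W^{1,2}`. -/
def IsDiv (X : H) (h : L0 m) : Prop :=
  MemLp h 2 m ∧ ∀ g, W U m g → ∫ x, T.ip (T.grad g) X x ∂m = -∫ x, g x * h x ∂m

/-- `div X`. -/
noncomputable def div (X : H) : L0 m := pick (T.IsDiv X) 0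

/-- `f ∈ Test(M)`: `f ∈ D(Δ)` has a bounded Lipschitz representative and
`Δf = div ∇f ∈ W^{1,2}`. -/
def Test (f : L0 m) : Prop :=
  (∃ v : M → ℝ, (∃ K, LipschitzWith K v) ∧ (∃ K : ℝ, ∀ x, |v x| ≤ K) ∧ f =ᵐ[m] v) ∧ W U m f ∧
    ∃ h, T.IsDiv (T.grad f) h ∧ W U m h

/-- `X ∈ TestV(M)`: `X = ∑ a_j ∇b_j` with test functions `a_j`, `b_j`. -/
def TestV (X : H) : Prop :=
  ∃ l : List (L0 m × L0 m), (∀ p ∈ l, T.Test p.1 ∧ T.Test p.2) ∧
    X = (l.map fun p => T.sm p.1 (T.grad p.2)).sum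

/-- `A` is a square integrable 2-tensor, `A X Y = A : (X ⊗ Y)`: for some `τ ∈ L²`, pointwise,
`|∑ s_i A X_i Y_i| ≤ |τ| |∑ s_i X_i ⊗ Y_i|` with the Hilbert-Schmidt norm. -/
def IsTen (A : H → H → L0 m) : Prop :=
  ∃ τ : M → ℝ, MemLp τ 2 m ∧ ∀ (k : ℕ) (X Y : Fin k → H), ∀ᵐ x ∂m, ∀ s : Fin k → ℝ,
    (∑ i, s i * A (X i) (Y i) x) ^ 2 ≤
      τ x ^ 2 * ∑ i, ∑ j, s i * s j * (T.ip (X i) (X j) x * T.ip (Y i) (Y j) x)

/-- `A = Hess f`: `2 ∫ h A(∇g, ∇k) = ∫ -⟨∇f,∇g⟩ div(h ∇k) - ⟨∇f,∇k⟩ div(h ∇g)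
- h ⟨∇f, ∇⟨∇g,∇k⟩⟩` for all test functions `g`, `k`, `h`. -/
def IsHess (f : L0 m) (A : H → H → L0 m) : Prop :=
  T.IsTen A ∧ ∀ g k h, T.Test g → T.Test k → T.Test h →
    2 * ∫ x, h x * A (T.grad g) (T.grad k) x ∂m =
      ∫ x, (-(T.ip (T.grad f) (T.grad g) x * T.div (T.sm h (T.grad k)) x)
        - T.ip (T.grad f) (T.grad k) x * T.div (T.sm h (T.grad g)) x
        - h x * T.ip (T.grad f) (T.grad (T.ip (T.grad g) (T.grad k))) x) ∂m

/-- `Hess f`. -/
noncomputable def hess (f : L0 m) : H → H → L0 m := pick (T.IsHess f) 0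

/-- `B = ∇Y`: `∫ h B : (∇g ⊗ ∇k) = ∫ -⟨Y,∇k⟩ div(h ∇g) - h Hess k (Y, ∇g)` for all test functions
`g`, `k`, `h`. -/
def IsCov (Y : H) (B : H → H → L0 m) : Prop :=
  T.IsTen B ∧ ∀ g k h, T.Test g → T.Test k → T.Test h →
    ∫ x, h x * B (T.grad g) (T.grad k) x ∂m =
      ∫ x, (-(T.ip Y (T.grad k) x * T.div (T.sm h (T.grad g)) x)
        - h x * T.hess k Y (T.grad g) x) ∂m

/-- The covariant derivative `∇Y`; `cov Y X Z = ∇Y : (X ⊗ Z) = ⟨∇_X Y, Z⟩`. -/
noncomputable def cov (Y : H) : H → H → L0 m := pick (T.IsCov Y) 0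

/-- The vector field `∇_X Y`. -/
noncomputable def nab (X Y : H) : H := pick (fun V => ∀ Z, T.ip V Z = T.cov Y X Z) 0

/-- The integrand of Gigli's functional `R(X,Y,Z,P)(f)`; the last term is
`f ⟨∇_{[X,Y]} Z, P⟩`, `[X,Y] = ∇_X Y - ∇_Y X`. -/
noncomputable def rm (X Y Z P : H) (f : L0 m) (x : M) : ℝ :=
  -T.ip (T.nab X (T.sm f P)) (T.nab Y Z) x - f x * T.ip (T.nab Y Z) P x * T.div X x
    + T.ip (T.nab Y (T.sm f P)) (T.nab X Z) x + f x * T.ip (T.nab X Z) P x * T.div Y x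
    - f x * T.cov Z (T.nab X Y - T.nab Y X) P x

/-- `f (|X|² |Y|² - ⟨X,Y⟩²)`. -/
noncomputable def ar (X Y : H) (f : L0 m) (x : M) : ℝ :=
  f x * (T.ip X X x * T.ip Y Y x - T.ip X Y x ^ 2)

/-- Distributional sectional curvature `≥ κ`. -/
def SecGE (κ : ℝ) : Prop :=
  ∀ X Y f, T.TestV X → T.TestV Y → T.Test f → 0 ≤ f →
    κ * ∫ x, T.ar X Y f x ∂m ≤ ∫ x, T.rm X Y Y X f x ∂m

/-- The module laws hold and no default value is used: the objects exist and are unique, the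
integrands are integrable. -/
structure WD : Prop where
  hmod : ∀ a b : L0 m, MemLp a ∞ m → MemLp b ∞ m → ∀ X Y,
    T.sm a (X + Y) = T.sm a X + T.sm a Y ∧ T.sm (a + b) X = T.sm a X + T.sm b X ∧
      T.sm (a * b) X = T.sm a (T.sm b X) ∧ T.sm 1 X = X ∧ 0 ≤ T.ip X X
  hmin : ∀ f, W U m f → ∃ S, IsMin U m f S
  hdiv : ∀ X, T.TestV X → ∃! h, T.IsDiv X h
  hgam : ∀ f g, T.Test f → T.Test g → W U m (T.ip (T.grad f) (T.grad g))
  hhess : ∀ f, T.Test f → ∃! A, T.IsHess f A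
  hcov : ∀ Y, T.TestV Y → ∃! B, T.IsCov Y B
  hnab : ∀ X Y, T.TestV X → T.TestV Y → ∃! V, ∀ Z, T.ip V Z = T.cov Y X Z
  hmul : ∀ f X, T.Test f → T.TestV X → T.TestV (T.sm f X)
  hint : ∀ X Y Z P f, T.TestV X → T.TestV Y → T.TestV Z → T.TestV P → T.Test f →
    Integrable (T.rm X Y Z P f) m ∧ Integrable (T.ar X Y f) m
  hint2 : ∀ f g k h Y A, T.Test f → T.Test g → T.Test k → T.Test h → T.TestV Y → T.IsTen A →
    Integrable (fun x => h x * A (T.grad g) (T.grad k) x) m ∧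
    Integrable (fun x => -(T.ip (T.grad f) (T.grad g) x * T.div (T.sm h (T.grad k)) x)
        - T.ip (T.grad f) (T.grad k) x * T.div (T.sm h (T.grad g)) x
        - h x * T.ip (T.grad f) (T.grad (T.ip (T.grad g) (T.grad k))) x) m ∧
    Integrable (fun x => -(T.ip Y (T.grad k) x * T.div (T.sm h (T.grad g)) x)
        - h x * T.hess k Y (T.grad g) x) m

end Tan

/-- Distributional sectional curvature `≥ κ`, computed in the tangent module. -/
def DistSec (κ : ℝ) : Prop :=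
  ∀ (H : Type u) [NormedAddCommGroup H] [InnerProductSpace ℝ H] (T : Tan U m H), T.SecGE κ

/-- The tangent module exists and its calculus is well defined. -/
def WellDef : Prop :=
  (∃ (H : Type u) (_ : NormedAddCommGroup H) (_ : InnerProductSpace ℝ H), Nonempty (Tan U m H)) ∧
  ∀ (H : Type u) [NormedAddCommGroup H] [InnerProductSpace ℝ H] (T : Tan U m H), T.WD

end Vale.Agent.P233G
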