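import Vale.Agent.P233G30.Rows

/-! P233G: test fields, divergence, test functions. -/

set_option linter.all false

open MeasureTheory Filter Topology Set
open scoped ENNReal NNReal InnerProductSpace

universe u

namespace Vale.Agent.P233G

open Vale.Agent.P233

theorem pick_spec {α : Type u} {P : α → Prop} {d : α} (h : ∃ a, P a) : P (T.pick P d) := by
  unfold T.pick
  rw [dif_pos h]
  exact h.choose_spec

variable {M : Type u} [MetricSpace M] [MeasurableSpace M]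
  {U : Measure M → (M → ℝ) → (M → ℝ) → Prop} {m : Measure M}
  {H : Type u} [NormedAddCommGroup H] [InnerProductSpace ℝ H] {T : Tan U m H}

theorem int_mul (f g : L0 m) : ∫ x, f x * g x ∂m = I (f * g) :=
  (integral_congr_ae (mul_ae f g)).symm

theorem Tan.mem1 (T : Tan U m H) (X Y : H) : MemLp (T.ip X Y) 1 m :=
  memLp_one_iff_integrable.2 (T.int X Y).1

theorem Tan.inner_eq (T : Tan U m H) (X Y : H) : ⟪X, Y⟫_ℝ = I (T.ip X Y) := (T.int X Y).2

theorem Tan.ext_ip (T : Tan U m H) {V V' : H} (h : ∀ Z, T.ip V Z = T.ip V' Z) : V = V' :=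
  ext_inner_right ℝ fun Z => by rw [T.inner_eq, T.inner_eq, h]

theorem Tan.ip_sm' (T : Tan U m H) {a : L0 m} (ha : MemLp a ∞ m) (X Y : H) :
    T.ip X (T.sm a Y) = a * T.ip X Y := by
  rw [T.symm, T.ip_sm a ha, T.symm]

theorem Tan.io_cons (T : Tan U m H) (p : L0 m × L0 m) (l : List (L0 m × L0 m)) :
    T.io (p :: l) = T.sm p.1 (T.grad p.2) + T.io l := by
  simp [Tan.io]

theorem Tan.io_nil (T : Tan U m H) : T.io [] = 0 := by simp [Tan.io]

namespace Bas

variable (b : Bas T)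
include b

theorem zero (Y : H) : T.ip 0 Y = 0 := by
  have := b.smul 0 0 Y
  rwa [zero_smul, zero_smul] at this

theorem add' (X Y Y' : H) : T.ip X (Y + Y') = T.ip X Y + T.ip X Y' := by
  rw [T.symm, b.add, T.symm Y, T.symm Y']

theorem zero' (X : H) : T.ip X 0 = 0 := by rw [T.symm, b.zero]

theorem io_left {l : List (L0 m × L0 m)} (hl : ∀ p ∈ l, MemLp p.1 ∞ m) (Y : H) :
    T.ip (T.io l) Y = (l.map fun p => p.1 * T.ip (T.grad p.2) Y).sum := by
  induction l with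
  | nil => rw [T.io_nil, b.zero]; simp
  | cons p l ih =>
    rw [T.io_cons, b.add, T.ip_sm _ (hl p List.mem_cons_self),
      ih fun q hq => hl q (List.mem_cons_of_mem _ hq)]
    simp

theorem io_right {l : List (L0 m × L0 m)} (hl : ∀ p ∈ l, MemLp p.1 ∞ m) (Y : H) :
    T.ip Y (T.io l) = (l.map fun p => p.1 * T.ip Y (T.grad p.2)).sum := by
  rw [T.symm, b.io_left hl]
  exact ls_congr fun p _ => by rw [T.symm]

theorem sm_io {f : L0 m} (hf : MemLp f ∞ m) {l : List (L0 m × L0 m)}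
    (hl : ∀ p ∈ l, MemLp p.1 ∞ m) : T.sm f (T.io l) = T.io (Calc.mulV f l) := by
  refine T.ext_ip fun Z => ?_
  have h2 : ∀ p ∈ Calc.mulV f l, MemLp p.1 ∞ m := by
    intro r hr
    obtain ⟨p, hp, rfl⟩ := List.mem_map.1 hr
    exact mem_mul_top hf (hl p hp)
  rw [T.ip_sm f hf, b.io_left hl, b.io_left h2, ls_mulV, ← ls_mul]
  exact ls_congr fun p _ => by rw [mul_assoc]

theorem isDiv_iff {X : H} {h : L0 m} : T.IsDiv X h ↔
    MemLp h 2 m ∧ ∀ g ∈ (sob m).W, I (T.ip (T.grad g) X) = -I (g * h) := by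
  unfold Tan.IsDiv
  simp only [b.w, int_mul]
  rfl

end Bas

variable [SecondCountableTopology M] [BorelSpace M] {κ : ℝ} {Gr : L0 m → M → E1}

theorem Ctx.top (c : Ctx U m κ Gr) {l : List (L0 m × L0 m)} (hl : (sob m).IsTestV l) :
    ∀ p ∈ l, MemLp p.1 ∞ m := fun p hp => (c.hC.test_A (hl p hp).1).2

namespace Bas

variable (b : Bas T) (c : Ctx U m κ Gr)
include b c

theorem ip_io {X Y : List (L0 m × L0 m)} (hX : (sob m).IsTestV X) (hY : (sob m).IsTestV Y) :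
    T.ip (T.io X) (T.io Y) = (sob m).ip X Y := by
  rw [b.io_left (c.top hX)]
  unfold Calc.ip
  refine ls_congr fun p hp => ?_
  rw [b.io_right (c.top hY), ← ls_mul]
  refine ls_congr fun q hq => ?_
  rw [b.gg _ (c.hC.tW (hX p hp).2) _ (c.hC.tW (hY q hq).2), mul_assoc]

theorem ip_io_top {X Y : List (L0 m × L0 m)} (hX : (sob m).IsTestV X) (hY : (sob m).IsTestV Y) :
    MemLp (T.ip (T.io X) (T.io Y)) ∞ m := by
  rw [b.ip_io c hX hY]
  unfold Calc.ip
  refine mem_ls fun p hp => mem_ls fun q hq => ?_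
  exact mem_mul_top (mem_mul_top (c.top hX p hp) (c.top hY q hq))
    (c.hC.Γ_mem c.hB (hX p hp).2 (hY q hq).2).2

theorem div_unique {X : H} {h h' : L0 m} (h1 : T.IsDiv X h) (h2 : T.IsDiv X h') : h = h' := by
  have := c.sf
  rw [b.isDiv_iff] at h1 h2
  rw [← sub_eq_zero]
  refine c.hC.eq_zero_of_test2 c.hB (mem_sub h1.1 h2.1) fun s hs => ?_
  have sW := c.hC.tW hs
  have s2 := c.hC.memLp _ sW
  have e1 := h1.2 s sW
  have e2 := h2.2 s sW
  rw [mul_sub, I_sub (mem_mul_22 s2 h1.1) (mem_mul_22 s2 h2.1)]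
  linarith

theorem isDiv_grad {f h : L0 m} (hf : f ∈ (sob m).W) :
    T.IsDiv (T.grad f) h ↔ (sob m).IsLap f h := by
  rw [b.isDiv_iff]
  constructor
  · rintro ⟨h1, h2⟩
    refine ⟨hf, h1, fun g hg => ?_⟩
    have := h2 g hg
    rw [b.gg g hg f hf, c.hC.symm g hg f hf, mul_comm] at this
    exact this
  · rintro ⟨-, h1, h2⟩
    refine ⟨h1, fun g hg => ?_⟩
    rw [b.gg g hg f hf, c.hC.symm g hg f hf, mul_comm]
    exact h2 g hg

theorem test_iff {f : L0 m} : T.Test f ↔ f ∈ (sob m).Test := by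
  constructor
  · rintro ⟨h1, h2, h, h3, h4⟩
    exact ⟨h1, h, (b.isDiv_grad c ((b.w f).1 h2)).1 h3, (b.w h).1 h4⟩
  · rintro ⟨h1, h, h3, h4⟩
    exact ⟨h1, (b.w f).2 h3.1, h, (b.isDiv_grad c h3.1).2 h3, (b.w h).2 h4⟩

theorem testV_iff {X : H} : T.TestV X ↔ ∃ l, (sob m).IsTestV l ∧ T.io l = X := by
  unfold Tan.TestV Calc.IsTestV
  simp only [b.test_iff c]
  exact ⟨fun ⟨l, h1, h2⟩ => ⟨l, h1, h2.symm⟩, fun ⟨l, h1, h2⟩ => ⟨l, h1, h2.symm⟩⟩

omit b in
/-- integration by parts against `a ∇e` -/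
theorem ibp1 {a e g : L0 m} (ha : a ∈ (sob m).Test) (he : e ∈ (sob m).Test) (hg : g ∈ (sob m).W) :
    I (a * (sob m).Γ g e) = -I (g * ((sob m).Γ a e + a * (sob m).lap e)) := by
  have aA := c.hC.test_A ha
  have aT := c.hC.test_Γ_top ha
  have eW := c.hC.tW he
  have h1 := c.hC.ibp he (c.hC.toIsDir.mul_mem_lip aA aT hg)
  rw [c.hC.symm e eW _ (c.hC.toIsDir.mul_mem_lip aA aT hg),
    c.hC.toIsDir.Γ_mul_left_lip aA aT hg eW] at h1
  have g2 := c.hC.memLp _ hg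
  have m1 : MemLp (a * (sob m).Γ g e : L0 m) 1 m := mem_mul_top aA.2 (c.hC.Γ_mem1 hg eW)
  have m2 : MemLp (g * (sob m).Γ a e : L0 m) 1 m :=
    mem_mul_22 g2 (c.hC.memLp _ (c.hC.Γ_mem c.hB ha he).1)
  have m3 : MemLp (g * (a * (sob m).lap e) : L0 m) 1 m :=
    mem_mul_22 g2 (mem_mul_top aA.2 (c.hC.lap2 he))
  rw [I_add m1 m2] at h1
  rw [mul_add, I_add m2 m3]
  have e3 : g * (a * (sob m).lap e) = (sob m).lap e * (a * g) := by ring
  rw [e3]
  linarith

theorem isDiv_io {l : List (L0 m × L0 m)} (hl : (sob m).IsTestV l) :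
    T.IsDiv (T.io l) ((sob m).dv l) := by
  rw [b.isDiv_iff]
  refine ⟨dv_mem2 c.hC c.hB hl, fun g hg => ?_⟩
  have g2 := c.hC.memLp _ hg
  induction l with
  | nil =>
    rw [T.io_nil, b.zero']
    simp [Calc.dv, I_zero]
  | cons p l ih =>
    have hp := hl p List.mem_cons_self
    have hl' : (sob m).IsTestV l := fun q hq => hl q (List.mem_cons_of_mem _ hq)
    have e : (sob m).dv (p :: l) = ((sob m).Γ p.1 p.2 + p.1 * (sob m).lap p.2) + (sob m).dv l := by
      simp [Calc.dv]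
    have m1 : MemLp ((sob m).Γ p.1 p.2 + p.1 * (sob m).lap p.2 : L0 m) 2 m :=
      mem_add (c.hC.memLp _ (c.hC.Γ_mem c.hB hp.1 hp.2).1)
        (mem_mul_top (c.hC.test_A hp.1).2 (c.hC.lap2 hp.2))
    rw [T.io_cons, b.add', I_add (T.mem1 _ _) (T.mem1 _ _), ih hl', e, mul_add,
      I_add (mem_mul_22 g2 m1) (mem_mul_22 g2 (dv_mem2 c.hC c.hB hl')),
      T.ip_sm' (c.hC.test_A hp.1).2, b.gg g hg _ (c.hC.tW hp.2), ibp1 c hp.1 hp.2 hg]
    ring

theorem div_io {l : List (L0 m × L0 m)} (hl : (sob m).IsTestV l) :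
    T.div (T.io l) = (sob m).dv l :=
  b.div_unique c (pick_spec ⟨_, b.isDiv_io c hl⟩) (b.isDiv_io c hl)

theorem div_one {h g : L0 m} (hh : h ∈ (sob m).Test) (hg : g ∈ (sob m).Test) :
    T.div (T.sm h (T.grad g)) = (sob m).Γ h g + h * (sob m).lap g := by
  have hl : (sob m).IsTestV [(h, g)] := by
    intro p hp
    rw [List.mem_singleton.1 hp]
    exact ⟨hh, hg⟩
  have := b.div_io c hl
  simpa [Tan.io, Calc.dv] using this

end Bas

end Vale.Agent.P233G
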