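import Vale.Agent.P233G30.Ten

/-! P233G: the Hessian and the covariant derivative. -/

set_option linter.all false

open MeasureTheory Filter Topology Set
open scoped ENNReal NNReal InnerProductSpace

universe u

namespace Vale.Agent.P233G

open Vale.Agent.P233

variable {M : Type u} [MetricSpace M] [MeasurableSpace M]
  {U : Measure M → (M → ℝ) → (M → ℝ) → Prop} {m : Measure M}
  {H : Type u} [NormedAddCommGroup H] [InnerProductSpace ℝ H]

/-- everything the rows give -/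
structure Kit (T : Tan U m H) (κ : ℝ) (Gr : L0 m → M → E1) (J : H →L[ℝ] Lp E1 2 m)
    (σ : L0 m → M → E2) : Prop where
  c : Ctx U m κ Gr
  b : Bas T
  r : Rz T Gr J
  dn : Dense {v | ∃ l, (sob m).IsTestV l ∧ T.io l = v}
  un : ∀ A A' : H → H → L0 m, T.IsTen A → T.IsTen A' →
    (∀ a ∈ (sob m).Test, ∀ c ∈ (sob m).Test,
      A (T.grad a) (T.grad c) = A' (T.grad a) (T.grad c)) → A = A'
  tn : ∀ β : M → E2, MemLp β 2 m → ∃ A : H → H → L0 m, T.IsTen A ∧ Rep J A β ∧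
    ∀ X : H, MemLp (T.ip X X) ∞ m →
      (∃ V, ∀ Z, T.ip V Z = A X Z) ∧ ∃ V, ∀ Z, T.ip V Z = A Z X
  sm : ∀ b ∈ (sob m).Test, MemLp (σ b) 2 m
  si : ∀ b ∈ (sob m).Test, ∀ a ∈ (sob m).Test, ∀ c ∈ (sob m).Test,
    ∀ᵐ x ∂m, ⟪σ b x, tm (Gr a x) (Gr c x)⟫_ℝ = (sob m).hess b a c x

/-- `∇Y : (∇g ⊗ ∇k)` for the field `Y` of the list `l` -/
noncomputable def cvf (l : List (L0 m × L0 m)) (g k : L0 m) : L0 m :=
  (l.map fun q => (sob m).Γ g q.1 * (sob m).Γ q.2 k + q.1 * (sob m).hess q.2 g k).sum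

/-- the field of `∇Y` -/
noncomputable def bet (Gr : L0 m → M → E1) (σ : L0 m → M → E2) (l : List (L0 m × L0 m)) (x : M) :
    E2 := (l.map fun q => tm (Gr q.1 x) (Gr q.2 x) + q.1 x • σ q.2 x).sum

variable [SecondCountableTopology M] [BorelSpace M] {T : Tan U m H} {κ : ℝ} {Gr : L0 m → M → E1}
  {J : H →L[ℝ] Lp E1 2 m} {σ : L0 m → M → E2}

namespace Kit

variable (k : Kit T κ Gr J σ)
include k

theorem gtop {g : L0 m} (hg : g ∈ (sob m).Test) : MemLp (T.ip (T.grad g) (T.grad g)) ∞ m := by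
  rw [k.b.gg _ (k.c.hC.tW hg) _ (k.c.hC.tW hg)]
  exact k.c.hC.test_Γ_top hg

theorem D2 {h g : L0 m} (hh : h ∈ (sob m).Test) (hg : g ∈ (sob m).Test) :
    MemLp ((sob m).Γ h g + h * (sob m).lap g : L0 m) 2 m :=
  mem_add (k.c.hC.memLp _ (k.c.hC.Γ_mem k.c.hB hh hg).1)
    (mem_mul_top (k.c.hC.test_A hh).2 (k.c.hC.lap2 hg))

/-- an identity tested against all test functions -/
theorem eq_iff_test {F G : L0 m} (hF : MemLp F 2 m) (hG : MemLp G 2 m) :
    (∀ h ∈ (sob m).Test, I (h * F) = I (h * G)) ↔ F = G := by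
  have := k.c.sf
  refine ⟨fun h => ?_, fun h _ _ => by rw [h]⟩
  rw [← sub_eq_zero]
  refine k.c.hC.eq_zero_of_test2 k.c.hB (mem_sub hF hG) fun s hs => ?_
  have s2 := k.c.hC.memLp _ (k.c.hC.tW hs)
  rw [mul_sub, I_sub (mem_mul_22 s2 hF) (mem_mul_22 s2 hG), h s hs, sub_self]

theorem hess_rhs {f g e h : L0 m} (hf : f ∈ (sob m).Test) (hg : g ∈ (sob m).Test)
    (he : e ∈ (sob m).Test) (hh : h ∈ (sob m).Test) :
    ∫ x, (-(T.ip (T.grad f) (T.grad g) x * T.div (T.sm h (T.grad e)) x)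
        - T.ip (T.grad f) (T.grad e) x * T.div (T.sm h (T.grad g)) x
        - h x * T.ip (T.grad f) (T.grad (T.ip (T.grad g) (T.grad e))) x) ∂m
      = 2 * I (h * (sob m).hess f g e) := by
  have hC := k.c.hC
  have hB := k.c.hB
  have fW := hC.tW hf
  have gW := hC.tW hg
  have eW := hC.tW he
  have fg := (hC.Γ_mem hB hf hg).1
  have fe := (hC.Γ_mem hB hf he).1
  have ge := (hC.Γ_mem hB hg he).1
  have hT := (hC.test_A hh).2
  rw [k.b.gg f fW g gW, k.b.gg f fW e eW, k.b.gg g gW e eW, k.b.gg f fW _ ge,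
    k.b.div_one k.c hh he, k.b.div_one k.c hh hg]
  have m1 := mem_mul_22 (hC.memLp _ fg) (k.D2 hh he)
  have m2 := mem_mul_22 (hC.memLp _ fe) (k.D2 hh hg)
  have m3 := mem_mul_top hT (hC.Γ_mem1 fW ge)
  have n1 := mem_mul_top hT (hC.Γ_mem1 gW fe)
  have n2 := mem_mul_top hT (hC.Γ_mem1 eW fg)
  have i1 := Bas.ibp1 k.c hh he fg
  have i2 := Bas.ibp1 k.c hh hg fe
  rw [hC.symm _ fg _ eW] at i1
  rw [hC.symm _ fe _ gW] at i2
  have e2 : h * (sob m).hess f g e = (2 : ℝ)⁻¹ • (h * (sob m).Γ g ((sob m).Γ f e)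
      + h * (sob m).Γ e ((sob m).Γ f g) - h * (sob m).Γ f ((sob m).Γ g e)) := by
    unfold Calc.hess
    rw [mul_smul_comm, mul_sub, mul_add]
  rw [e2, I_smul, I_sub (mem_add n1 n2) m3, I_add n1 n2, i1, i2,
    integral_sub (f := fun x => -(_ * _) - _ * _), integral_sub, integral_neg, int_mul, int_mul,
    int_mul]
  · ring
  · exact ((int_of_mem m1).congr (mul_ae _ _)).neg
  · exact (int_of_mem m2).congr (mul_ae _ _)
  · exact ((int_of_mem m1).congr (mul_ae _ _)).neg.sub ((int_of_mem m2).congr (mul_ae _ _))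
  · exact (int_of_mem m3).congr (mul_ae _ _)

theorem isHess_iff {f : L0 m} (hf : f ∈ (sob m).Test) {A : H → H → L0 m} :
    T.IsHess f A ↔ T.IsTen A ∧ ∀ a ∈ (sob m).Test, ∀ c ∈ (sob m).Test,
      A (T.grad a) (T.grad c) = (sob m).hess f a c := by
  unfold Tan.IsHess
  simp only [k.b.test_iff k.c]
  refine and_congr_right fun hA => ⟨fun h a ha c hc => ?_, fun h g e s hg he hs => ?_⟩
  · refine (k.eq_iff_test (ten_mem2 hA (k.gtop ha) (k.gtop hc))
      (k.c.hC.hess_mem2 k.c.hB hf ha hc)).1 fun s hs => ?_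
    have := h a c s ha hc hs
    rw [k.hess_rhs hf ha hc hs, int_mul] at this
    linarith
  · rw [k.hess_rhs hf hg he hs, int_mul, h g hg e he]

theorem rep_grad {A : H → H → L0 m} {β : M → E2} (h : Rep J A β) {a c : L0 m}
    (ha : a ∈ (sob m).Test) (hc : c ∈ (sob m).Test) :
    ∀ᵐ x ∂m, A (T.grad a) (T.grad c) x = ⟪β x, tm (Gr a x) (Gr c x)⟫_ℝ := by
  filter_upwards [h (T.grad a) (T.grad c), k.r.grad a (k.c.hC.tW ha), k.r.grad c (k.c.hC.tW hc)]
    with x a1 a2 a3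
  rw [a1, a2, a3]

theorem hess_ex {f : L0 m} (hf : f ∈ (sob m).Test) :
    ∃ A, T.IsHess f A ∧ Rep J A (σ f) := by
  obtain ⟨A, h1, h2, -⟩ := k.tn (σ f) (k.sm f hf)
  refine ⟨A, (k.isHess_iff hf).2 ⟨h1, fun a ha c hc => ?_⟩, h2⟩
  rw [eq_iff_ae]
  filter_upwards [k.rep_grad h2 ha hc, k.si f hf a ha c hc] with x a1 a2
  rw [a1, a2]

theorem hess_unique {f : L0 m} (hf : f ∈ (sob m).Test) {A A' : H → H → L0 m}
    (h : T.IsHess f A) (h' : T.IsHess f A') : A = A' := by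
  rw [k.isHess_iff hf] at h h'
  exact k.un A A' h.1 h'.1 fun a ha c hc => (h.2 a ha c hc).trans (h'.2 a ha c hc).symm

theorem isHess {f : L0 m} (hf : f ∈ (sob m).Test) : T.IsHess f (T.hess f) :=
  pick_spec (let ⟨A, h, _⟩ := k.hess_ex hf; ⟨A, h⟩)

theorem hess_rep {f : L0 m} (hf : f ∈ (sob m).Test) : Rep J (T.hess f) (σ f) := by
  obtain ⟨A, h1, h2⟩ := k.hess_ex hf
  rwa [k.hess_unique hf (k.isHess hf) h1]

theorem hess_gg {f a c : L0 m} (hf : f ∈ (sob m).Test) (ha : a ∈ (sob m).Test)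
    (hc : c ∈ (sob m).Test) : T.hess f (T.grad a) (T.grad c) = (sob m).hess f a c :=
  ((k.isHess_iff hf).1 (k.isHess hf)).2 a ha c hc

end Kit

end Vale.Agent.P233G
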