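import Vale.Agent.P233G30.Cov
import Vale.Agent.P233G35.HS
import Vale.Agent.P233G39.BA
import Vale.Agent.P233G46.DN
import Vale.Agent.P233G49.TE
import Vale.Agent.P233G72.Extra
import Vale.Agent.P233G72.TJ
import Vale.Agent.P233G73.UN
import Vale.Agent.P233G74.TN
import Vale.Agent.P233Z.BWell

/-! P233G: the calculus is well defined and gives the same curvature condition. -/

set_option linter.all false

open MeasureTheory Filter Topology Set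
open scoped ENNReal NNReal InnerProductSpace

universe u

namespace Vale.Agent.P233G

open Vale.Agent.P233

variable {M : Type u} [MetricSpace M] [MeasurableSpace M]
  {U : Measure M → (M → ℝ) → (M → ℝ) → Prop} {m : Measure M}
  {H : Type u} [NormedAddCommGroup H] [InnerProductSpace ℝ H]
  [SecondCountableTopology M] [BorelSpace M] {T : Tan U m H} {κ : ℝ} {Gr : L0 m → M → E1}
  {J : H →L[ℝ] Lp E1 2 m} {σ : L0 m → M → E2}

theorem exists_kit (c : Ctx U m κ Gr) (T : Tan U m H) : ∃ J σ, Kit T κ Gr J σ := by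
  have b : Bas T := P233G39.ba M U m κ Gr c H T
  obtain ⟨J, r⟩ := P233G72.tj M U m κ Gr c H T b
  have dn := P233G46.dn M U m κ Gr c H T b J r
  have hs := P233G35.hs M U m κ Gr c
  choose! σ h1 h2 using hs
  exact ⟨J, σ, c, b, r, dn, P233G73.un M U m κ Gr c H T J r dn,
    P233G74.tn M U m κ Gr c H T J r, h1, h2⟩

theorem cls_eq {X : S.VF M} {X' : List (L0 m × L0 m)} (h : RV X X') : clsV m X = X' := by
  unfold RV at h
  unfold clsV
  induction h with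
  | nil => rfl
  | cons h1 _ ih => rw [List.map_cons, ih, R_cls h1.1, R_cls h1.2.1]

theorem mul3_ae (f g h : L0 m) : (f * g * h : L0 m) =ᵐ[m] fun x => f x * g x * h x :=
  EventuallyEq.symm (((R.coe f).mul (R.coe g)).mul (R.coe h))

namespace Kit

variable (k : Kit T κ Gr J σ) {X Y Z P : List (L0 m × L0 m)} {f : L0 m}
include k

theorem int2 (hX : (sob m).IsTestV X) (hY : (sob m).IsTestV Y) (hZ : (sob m).IsTestV Z)
    (hP : (sob m).IsTestV P) (hf : f ∈ (sob m).Test) :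
    Integrable (fun x => f x * T.ip (T.nab (T.io Y) (T.io Z)) (T.io P) x * T.div (T.io X) x) m ∧
    ∫ x, f x * T.ip (T.nab (T.io Y) (T.io Z)) (T.io P) x * T.div (T.io X) x ∂m =
      I (f * (sob m).nab Y Z P * (sob m).dv X) := by
  rw [k.nab_io hY hZ hP, k.b.div_io k.c hX]
  exact ⟨(int_of_mem (mem_mul_22 (mem_mul_top (k.c.hC.test_A hf).2
    (nab_mem2 k.c.hC k.c.hB hY hZ hP)) (dv_mem2 k.c.hC k.c.hB hX))).congr (mul3_ae _ _ _),
    (integral_congr_ae (mul3_ae _ _ _)).symm⟩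

theorem int5 (hZ : (sob m).IsTestV Z) (hP : (sob m).IsTestV P) (hf : f ∈ (sob m).Test) (V : H) :
    Integrable (fun x => f x * T.cov (T.io Z) V (T.io P) x) m :=
  (int_of_mem (mem_mul_top (k.c.hC.test_A hf).2
    (ten_mem1 k.r (k.isCov hZ).1 V (k.b.ip_io_top k.c hP hP)))).congr (mul_ae _ _)

theorem rm_int (hX : (sob m).IsTestV X) (hY : (sob m).IsTestV Y) (hZ : (sob m).IsTestV Z)
    (hP : (sob m).IsTestV P) (hf : f ∈ (sob m).Test) :
    Integrable (T.rm (T.io X) (T.io Y) (T.io Z) (T.io P) f) m ∧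
    ∫ x, T.rm (T.io X) (T.io Y) (T.io Z) (T.io P) f x ∂m =
      -⟪T.nab (T.io X) (T.sm f (T.io P)), T.nab (T.io Y) (T.io Z)⟫_ℝ
      - I (f * (sob m).nab Y Z P * (sob m).dv X)
      + ⟪T.nab (T.io Y) (T.sm f (T.io P)), T.nab (T.io X) (T.io Z)⟫_ℝ
      + I (f * (sob m).nab X Z P * (sob m).dv Y)
      - I (f * T.cov (T.io Z) (T.nab (T.io X) (T.io Y) - T.nab (T.io Y) (T.io X)) (T.io P)) := by
  have a1 := T.int (T.nab (T.io X) (T.sm f (T.io P))) (T.nab (T.io Y) (T.io Z))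
  have a2 := k.int2 hX hY hZ hP hf
  have a3 := T.int (T.nab (T.io Y) (T.sm f (T.io P))) (T.nab (T.io X) (T.io Z))
  have a4 := k.int2 hY hX hZ hP hf
  have a5 := k.int5 hZ hP hf (T.nab (T.io X) (T.io Y) - T.nab (T.io Y) (T.io X))
  have b1 := a1.1.neg
  have b2 := b1.sub a2.1
  have b3 := b2.add a3.1
  have b4 := b3.add a4.1
  refine ⟨b4.sub a5, ?_⟩
  have e5 := integral_sub b4 a5
  have e4 := integral_add b3 a4.1
  have e3 := integral_add b2 a3.1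
  have e2 := integral_sub b1 a2.1
  have e1 := integral_neg (μ := m)
    (T.ip (T.nab (T.io X) (T.sm f (T.io P))) (T.nab (T.io Y) (T.io Z)))
  simp only [Pi.add_apply, Pi.sub_apply, Pi.neg_apply] at e5 e4 e3 e2
  unfold Tan.rm
  rw [e5, e4, e3, e2, e1, ← a1.2, ← a3.2, a2.2, a4.2, int_mul]

theorem ar_ae (hX : (sob m).IsTestV X) (hY : (sob m).IsTestV Y) :
    T.ar (T.io X) (T.io Y) f =ᵐ[m]
      (f * ((sob m).ip X X * (sob m).ip Y Y - (sob m).ip X Y ^ 2) : L0 m) := by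
  unfold Tan.ar
  rw [k.b.ip_io k.c hX hX, k.b.ip_io k.c hY hY, k.b.ip_io k.c hX hY]
  exact (R.coe f).mul (R.sub ((R.coe _).mul (R.coe _)) (R.coe _).sq)

theorem ar_int (hX : (sob m).IsTestV X) (hY : (sob m).IsTestV Y) (hf : f ∈ (sob m).Test) :
    Integrable (T.ar (T.io X) (T.io Y) f) m := by
  refine (int_of_mem (mem_mul_top (k.c.hC.test_A hf).2 ?_)).congr (k.ar_ae hX hY).symm
  rw [sq, ← k.b.ip_io k.c hX hX, ← k.b.ip_io k.c hY hY, ← k.b.ip_io k.c hX hY]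
  exact mem_sub (mem_mul_top (k.b.ip_io_top k.c hX hX) (T.mem1 _ _))
    (mem_mul_top (k.b.ip_io_top k.c hX hY) (T.mem1 _ _))

theorem wd : T.WD := by
  have hC := k.c.hC
  have hB := k.c.hB
  refine ⟨P233G72.hmod k.b, fun f hf => ?_, fun X hX => ?_, fun f g hf hg => ?_, fun f hf => ?_,
    fun Y hY => ?_, fun X Y hX hY => ?_, fun f X hf hX => ?_,
    fun X Y Z P f hX hY hZ hP hf => ?_, P233G72.hint2 k⟩
  · have h := isMinSlope_iff.1 (exists_minSlope' ((k.b.w f).1 hf))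
    exact ⟨slope f, (k.c.hU _ _).2 h.1, fun G hG => h.2 G ((k.c.hU _ _).1 hG)⟩
  · obtain ⟨l, hl, rfl⟩ := (k.b.testV_iff k.c).1 hX
    exact ⟨_, k.b.isDiv_io k.c hl, fun h hh => k.b.div_unique k.c hh (k.b.isDiv_io k.c hl)⟩
  · rw [k.b.test_iff k.c] at hf hg
    rw [k.b.gg _ (hC.tW hf) _ (hC.tW hg), k.b.w]
    exact (hC.Γ_mem hB hf hg).1
  · rw [k.b.test_iff k.c] at hf
    exact ⟨_, k.isHess hf, fun A hA => k.hess_unique hf hA (k.isHess hf)⟩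
  · obtain ⟨l, hl, rfl⟩ := (k.b.testV_iff k.c).1 hY
    exact ⟨_, k.isCov hl, fun A hA => k.cov_unique hl hA (k.isCov hl)⟩
  · obtain ⟨l, hl, rfl⟩ := (k.b.testV_iff k.c).1 hX
    obtain ⟨l', hl', rfl⟩ := (k.b.testV_iff k.c).1 hY
    exact ⟨_, k.nab_spec hl hl', fun V hV => T.ext_ip fun Z =>
      (hV Z).trans (k.nab_spec hl hl' Z).symm⟩
  · obtain ⟨l, hl, rfl⟩ := (k.b.testV_iff k.c).1 hX
    rw [k.b.test_iff k.c] at hf
    exact (k.b.testV_iff k.c).2 ⟨_, mulV_test hC hB hl hf,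
      (k.b.sm_io (hC.test_A hf).2 (k.c.top hl)).symm⟩
  · obtain ⟨l1, h1, rfl⟩ := (k.b.testV_iff k.c).1 hX
    obtain ⟨l2, h2, rfl⟩ := (k.b.testV_iff k.c).1 hY
    obtain ⟨l3, h3, rfl⟩ := (k.b.testV_iff k.c).1 hZ
    obtain ⟨l4, h4, rfl⟩ := (k.b.testV_iff k.c).1 hP
    rw [k.b.test_iff k.c] at hf
    exact ⟨(k.rm_int h1 h2 h3 h4 hf).1, k.ar_int h1 h2 hf⟩

theorem isL2TM : (P233.T.sob m).IsL2TM fun X => T.io (clsV m X) := by
  refine ⟨T.complete, fun X Y hX hY => ?_, fun v ε hε => ?_⟩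
  · have rX := RV_clsV (m := m) hX
    have rY := RV_clsV (m := m) hY
    rw [T.inner_eq, k.b.ip_io k.c rX.isTestV rY.isTestV]
    exact ((rX.ip rY k.c.hC).int).symm
  · obtain ⟨w, ⟨X', hX', rfl⟩, hw⟩ := Metric.mem_closure_iff.1 (k.dn v) ε hε
    have r := RV_coeV hX'
    refine ⟨coeV X', r.testV, ?_⟩
    beta_reduce
    rw [cls_eq r, ← dist_eq_norm, dist_comm]
    exact hw

theorem isCovF {X₀ Y₀ : S.VF M} (rX : RV X₀ X) (rY : RV Y₀ Y) :
    (P233.T.sob m).IsCov (fun X => T.io (clsV m X)) X₀ Y₀ (T.nab (T.io X) (T.io Y)) := by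
  intro Z hZ
  have rZ := RV_clsV (m := m) hZ
  rw [T.inner_eq, k.nab_io rX.isTestV rY.isTestV rZ.isTestV]
  exact ((RV.nab k.c.hC k.c.hB rX rY rZ).int).symm

/-- the two forms of the inequality have the same sides -/
theorem key {X₀ Y₀ : S.VF M} {f₀ : M → ℝ} (rX : RV X₀ X) (rY : RV Y₀ Y) (rf : R f₀ f)
    (hf : f ∈ (sob m).Test) : ∃ A Q D E F G : H,
    (P233.T.sob m).IsCov (fun X => T.io (clsV m X)) X₀ (P233.T.Calc.mul f₀ X₀) A ∧
    (P233.T.sob m).IsCov (fun X => T.io (clsV m X)) Y₀ Y₀ Q ∧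
    (P233.T.sob m).IsCov (fun X => T.io (clsV m X)) Y₀ (P233.T.Calc.mul f₀ X₀) D ∧
    (P233.T.sob m).IsCov (fun X => T.io (clsV m X)) X₀ Y₀ E ∧
    (P233.T.sob m).IsCov (fun X => T.io (clsV m X)) Y₀ X₀ F ∧
    P233Z.IsCovT (P233.T.sob m) (fun X => T.io (clsV m X)) Y₀ (P233.T.Calc.mul f₀ X₀) G ∧
    (P233.T.sob m).int (fun x => f₀ x * ((P233.T.sob m).ip X₀ X₀ x * (P233.T.sob m).ip Y₀ Y₀ x
      - (P233.T.sob m).ip X₀ Y₀ x ^ 2)) = ∫ x, T.ar (T.io X) (T.io Y) f x ∂m ∧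
    -⟪A, Q⟫_ℝ - (P233.T.sob m).int (fun x => f₀ x * (P233.T.sob m).nab Y₀ Y₀ X₀ x * (P233.T.sob m).dv X₀ x)
      + ⟪D, E⟫_ℝ + (P233.T.sob m).int (fun x => f₀ x * (P233.T.sob m).nab X₀ Y₀ X₀ x * (P233.T.sob m).dv Y₀ x)
      - ⟪E - F, G⟫_ℝ = ∫ x, T.rm (T.io X) (T.io Y) (T.io Y) (T.io X) f x ∂m := by
  have hC := k.c.hC
  have hB := k.c.hB
  have hX := rX.isTestV
  have hY := rY.isTestV
  have rP := RV_mulV hC hB rX rf hf
  have hP := rP.isTestV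
  have fT := (hC.test_A hf).2
  have eP := k.b.sm_io fT (k.c.top hX)
  obtain ⟨G, hG⟩ := ((k.cov_spec hY).2 _ (k.b.ip_io_top k.c hP hP)).2
  refine ⟨_, _, _, _, _, G, k.isCovF rX rP, k.isCovF rY rY, k.isCovF rY rP, k.isCovF rX rY,
    k.isCovF rY rX, fun Z hZ => ?_, ?_, ?_⟩
  · have rZ := RV_clsV (m := m) hZ
    rw [T.inner_eq, hG, k.cov_io rZ.isTestV hY hP]
    exact ((RV.nab hC hB rZ rY rP).int).symm
  · rw [integral_congr_ae (k.ar_ae hX hY)]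
    exact R.int (rf.mul (R.sub ((rX.ip rX hC).mul (rY.ip rY hC)) (rX.ip rY hC).sq))
  · have e1 : (P233.T.sob m).int (fun x => f₀ x * (P233.T.sob m).nab Y₀ Y₀ X₀ x * (P233.T.sob m).dv X₀ x)
        = I (f * (sob m).nab Y Y X * (sob m).dv X) :=
      R.int ((rf.mul (RV.nab hC hB rY rY rX)).mul (rX.dv hC))
    have e2 : (P233.T.sob m).int (fun x => f₀ x * (P233.T.sob m).nab X₀ Y₀ X₀ x * (P233.T.sob m).dv Y₀ x)
        = I (f * (sob m).nab X Y X * (sob m).dv Y) :=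
      R.int ((rf.mul (RV.nab hC hB rX rY rX)).mul (rY.dv hC))
    rw [(k.rm_int hX hY hY hX hf).2, e1, e2, real_inner_comm G, T.inner_eq G, hG, ← eP,
      (k.cov_spec hY).1.sm' k.r fT]

theorem sec_of {κ' : ℝ} (h : P233Z.DistSecAll (P233.T.sob m) κ') : T.SecGE κ' := by
  intro X Y f hX hY hf h0
  obtain ⟨l, hl, rfl⟩ := (k.b.testV_iff k.c).1 hX
  obtain ⟨l', hl', rfl⟩ := (k.b.testV_iff k.c).1 hY
  rw [k.b.test_iff k.c] at hf
  have rX := RV_coeV hl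
  have rY := RV_coeV hl'
  obtain ⟨A, Q, D, E, F, G, h1, h2, h3, h4, h5, h6, h7, h8⟩ := k.key rX rY (R.coe f) hf
  rw [← h7, ← h8]
  exact h H _ k.isL2TM _ _ rX.testV rY.testV f ((R.coe f).test_iff.2 hf) (nonneg_iff_ae.1 h0)
    A Q D E F G h1 h2 h3 h4 h5 h6

theorem of_sec {κ' : ℝ} (h : T.SecGE κ') : P233Z.DistSecAll (P233.T.sob m) κ' := by
  refine P233Z.distSecAll_of ⟨H, _, _, _, k.isL2TM, fun X Y hX hY f hf h0 => ?_⟩
  have rX := RV_clsV (m := m) hX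
  have rY := RV_clsV (m := m) hY
  obtain ⟨F₀, rf, hF⟩ := S_test_exists (m := m) hf
  obtain ⟨A, Q, D, E, F, G, h1, h2, h3, h4, h5, h6, h7, h8⟩ := k.key rX rY rf hF
  refine ⟨A, Q, D, E, F, G, h1, h2, h3, h4, h5, h6, ?_⟩
  rw [h7, h8]
  refine h _ _ _ ((k.b.testV_iff k.c).2 ⟨_, rX.isTestV, rfl⟩)
    ((k.b.testV_iff k.c).2 ⟨_, rY.isTestV, rfl⟩) ((k.b.test_iff k.c).2 hF) (nonneg_iff_ae.2 ?_)
  filter_upwards [h0, rf] with x a1 a2
  rwa [← a2]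

end Kit

theorem cal : ForC.{u} fun _ _ _ U m _ =>
    WellDef U m ∧ ∀ κ, DistSec U m κ ↔ P233Z.DistSecAll (P233.T.sob m) κ := by
  intro M _ _ _ _ U m K Gr c
  have te := P233G49.te M U m K Gr c
  refine ⟨⟨te, fun H _ _ T => ?_⟩, fun κ => ⟨fun h => ?_, fun h H _ _ T => ?_⟩⟩
  · obtain ⟨J, σ, k⟩ := exists_kit c T
    exact k.wd
  · obtain ⟨H, _, _, ⟨T⟩⟩ := te
    obtain ⟨J, σ, k⟩ := exists_kit c T
    exact k.of_sec (h H T)
  · obtain ⟨J, σ, k⟩ := exists_kit c T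
    exact k.sec_of h

end Vale.Agent.P233G
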