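import Vale.Agent.P233G30.Defs
import Vale.Agent.P233.Bd3.B10
import Mathlib.Analysis.InnerProductSpace.TensorProduct
import Mathlib.Analysis.InnerProductSpace.Completion
import Mathlib.Analysis.Normed.Operator.Extend

/-! P233G: the cut. Each row is a `Prop` over a context `Ctx`. -/

set_option linter.all false

open MeasureTheory Filter Topology Set
open scoped ENNReal NNReal InnerProductSpace TensorProduct

universe u

namespace Vale.Agent.P233G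

open Vale.Agent.P233

/-- the fibre of the concrete model -/
abbrev E1 : Type := lp (fun _ : ℕ => ℝ) 2

/-- its Hilbert tensor square -/
abbrev E2 : Type := UniformSpace.Completion (E1 ⊗[ℝ] E1)

/-- `u ⊗ v` -/
noncomputable def tm : E1 →L[ℝ] E1 →L[ℝ] E2 :=
  (ContinuousLinearMap.compL ℝ E1 (E1 ⊗[ℝ] E1) E2 UniformSpace.Completion.toComplL).comp
    (TensorProduct.mkL ℝ E1 E1)

theorem inner_tm (u v u' v' : E1) : ⟪tm u v, tm u' v'⟫_ℝ = ⟪u, u'⟫_ℝ * ⟪v, v'⟫_ℝ := by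
  change ⟪((u ⊗ₜ[ℝ] v : E1 ⊗[ℝ] E1) : E2), ((u' ⊗ₜ[ℝ] v' : E1 ⊗[ℝ] E1) : E2)⟫_ℝ = _
  rw [UniformSpace.Completion.inner_coe, TensorProduct.inner_tmul]

theorem norm_tm (u v : E1) : ‖tm u v‖ = ‖u‖ * ‖v‖ := by
  change ‖((u ⊗ₜ[ℝ] v : E1 ⊗[ℝ] E1) : E2)‖ = _
  rw [UniformSpace.Completion.norm_coe, TensorProduct.norm_tmul]

variable {M : Type u} [MetricSpace M] [MeasurableSpace M]

/-- what is known on an `RCD` space -/
structure Ctx (U : Measure M → (M → ℝ) → (M → ℝ) → Prop) (m : Measure M) (κ : ℝ)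
    (Gr : L0 m → M → E1) : Prop where
  hC : IsGamma (sob m)
  hB : (sob m).BEi κ
  hG : IsGrad (sob m) Gr
  sf : SigmaFinite m
  hU : ∀ f G, U m f G ↔ T.IsRelaxedSlope m f G

variable {U : Measure M → (M → ℝ) → (M → ℝ) → Prop} {m : Measure M}
  {H : Type u} [NormedAddCommGroup H] [InnerProductSpace ℝ H]

/-- the vector field of a list -/
noncomputable def Tan.io (T : Tan U m H) (l : List (L0 m × L0 m)) : H :=
  (l.map fun p => T.sm p.1 (T.grad p.2)).sum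

/-- `J` realizes the module inside `L²(M; E1)` -/
structure Rz (T : Tan U m H) (Gr : L0 m → M → E1) (J : H →L[ℝ] Lp E1 2 m) : Prop where
  ip : ∀ X Y, ∀ᵐ x ∂m, T.ip X Y x = ⟪J X x, J Y x⟫_ℝ
  sm : ∀ a : L0 m, MemLp a ∞ m → ∀ X, ∀ᵐ x ∂m, J (T.sm a X) x = a x • J X x
  grad : ∀ f ∈ (sob m).W, ∀ᵐ x ∂m, J (T.grad f) x = Gr f x

/-- first order facts that follow from the axioms of `Tan` -/
structure Bas (T : Tan U m H) : Prop where
  w : ∀ f, W U m f ↔ f ∈ (sob m).W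
  add : ∀ X X' Y, T.ip (X + X') Y = T.ip X Y + T.ip X' Y
  smul : ∀ (c : ℝ) X Y, T.ip (c • X) Y = c • T.ip X Y
  gg : ∀ f ∈ (sob m).W, ∀ g ∈ (sob m).W, T.ip (T.grad f) (T.grad g) = (sob m).Γ f g

/-- for all contexts -/
def ForC (P : ∀ (M : Type u) [MetricSpace M] [MeasurableSpace M]
    (U : Measure M → (M → ℝ) → (M → ℝ) → Prop) (m : Measure M) (Gr : L0 m → M → E1), Prop) :
    Prop :=
  ∀ (M : Type u) [MetricSpace M] [SecondCountableTopology M] [MeasurableSpace M] [BorelSpace M]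
    (U : Measure M → (M → ℝ) → (M → ℝ) → Prop) (m : Measure M) (κ : ℝ) (Gr : L0 m → M → E1),
    Ctx U m κ Gr → P M U m Gr

/-- for all contexts and tangent modules -/
def ForT (P : ∀ (M : Type u) [MetricSpace M] [MeasurableSpace M]
    (U : Measure M → (M → ℝ) → (M → ℝ) → Prop) (m : Measure M) (Gr : L0 m → M → E1)
    (H : Type u) [NormedAddCommGroup H] [InnerProductSpace ℝ H] (T : Tan U m H), Prop) : Prop :=
  ForC.{u} fun M _ _ U m Gr => ∀ (H : Type u) [NormedAddCommGroup H] [InnerProductSpace ℝ H]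
    (T : Tan U m H), P M U m Gr H T

def BA : Prop := ForT.{u} fun _ _ _ _ _ _ _ _ _ T => Bas T

def TJ : Prop := ForT.{u} fun _ _ _ _ m Gr H _ _ T => Bas T →
  ∃ J : H →L[ℝ] Lp E1 2 m, Rz T Gr J

def TE : Prop := ForC.{u} fun _ _ _ U m _ =>
  ∃ (H : Type u) (_ : NormedAddCommGroup H) (_ : InnerProductSpace ℝ H), Nonempty (Tan U m H)

def HS : Prop := ForC.{u} fun M _ _ _ m Gr => ∀ b ∈ (sob m).Test, ∃ σ : M → E2, MemLp σ 2 m ∧
  ∀ a ∈ (sob m).Test, ∀ c ∈ (sob m).Test,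
    ∀ᵐ x ∂m, ⟪σ x, tm (Gr a x) (Gr c x)⟫_ℝ = (sob m).hess b a c x

def DN : Prop := ForT.{u} fun _ _ _ _ m Gr H _ _ T => Bas T →
  ∀ J : H →L[ℝ] Lp E1 2 m, Rz T Gr J → Dense {v | ∃ l, (sob m).IsTestV l ∧ T.io l = v}

def UN : Prop := ForT.{u} fun _ _ _ _ m Gr H _ _ T =>
  ∀ J : H →L[ℝ] Lp E1 2 m, Rz T Gr J → Dense {v | ∃ l, (sob m).IsTestV l ∧ T.io l = v} →
  ∀ A A' : H → H → L0 m, T.IsTen A → T.IsTen A' →
    (∀ a ∈ (sob m).Test, ∀ c ∈ (sob m).Test,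
      A (T.grad a) (T.grad c) = A' (T.grad a) (T.grad c)) → A = A'

/-- tensors given by a field `β`, and their contractions -/
def TN : Prop := ForT.{u} fun M _ _ _ m Gr H _ _ T =>
  ∀ J : H →L[ℝ] Lp E1 2 m, Rz T Gr J → ∀ β : M → E2, MemLp β 2 m →
  ∃ A : H → H → L0 m, T.IsTen A ∧ (∀ X Y, ∀ᵐ x ∂m, A X Y x = ⟪β x, tm (J X x) (J Y x)⟫_ℝ) ∧
    ∀ X : H, MemLp (T.ip X X) ∞ m →
      (∃ V, ∀ Z, T.ip V Z = A X Z) ∧ ∃ V, ∀ Z, T.ip V Z = A Z X

end Vale.Agent.P233G
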