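import Vale.Agent.P233G30.Div

/-! P233G: tensors represented by a field, integrability of tensors. -/

set_option linter.all false

open MeasureTheory Filter Topology Set
open scoped ENNReal NNReal InnerProductSpace

universe u

namespace Vale.Agent.P233G

open Vale.Agent.P233

variable {M : Type u} [MetricSpace M] [MeasurableSpace M]
  {U : Measure M → (M → ℝ) → (M → ℝ) → Prop} {m : Measure M}
  {H : Type u} [NormedAddCommGroup H] [InnerProductSpace ℝ H] {T : Tan U m H}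
  {Gr : L0 m → M → E1} {J : H →L[ℝ] Lp E1 2 m}

/-- `A` is given by the field `β` -/
def Rep (J : H →L[ℝ] Lp E1 2 m) (A : H → H → L0 m) (β : M → E2) : Prop :=
  ∀ X Y, ∀ᵐ x ∂m, A X Y x = ⟪β x, tm (J X x) (J Y x)⟫_ℝ

theorem J_add (J : H →L[ℝ] Lp E1 2 m) (X Y : H) : ∀ᵐ x ∂m, J (X + Y) x = J X x + J Y x := by
  rw [map_add]
  exact Lp.coeFn_add _ _

theorem J_sub (J : H →L[ℝ] Lp E1 2 m) (X Y : H) : ∀ᵐ x ∂m, J (X - Y) x = J X x - J Y x := by
  rw [map_sub]
  exact Lp.coeFn_sub _ _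

theorem J_zero (J : H →L[ℝ] Lp E1 2 m) : ∀ᵐ x ∂m, J 0 x = 0 := by
  rw [map_zero]
  exact Lp.coeFn_zero _ _ _

namespace Rep

variable {A : H → H → L0 m} {β : M → E2} (h : Rep J A β)
include h

theorem add (X X' Y : H) : A (X + X') Y = A X Y + A X' Y := by
  rw [eq_iff_ae]
  filter_upwards [h (X + X') Y, h X Y, h X' Y, J_add J X X', add_ae (A X Y) (A X' Y)]
    with x a1 a2 a3 a4 a5
  rw [a5, a1, a2, a3, a4, map_add, ContinuousLinearMap.add_apply, inner_add_right]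

theorem add' (X Y Y' : H) : A X (Y + Y') = A X Y + A X Y' := by
  rw [eq_iff_ae]
  filter_upwards [h X (Y + Y'), h X Y, h X Y', J_add J Y Y', add_ae (A X Y) (A X Y')]
    with x a1 a2 a3 a4 a5
  rw [a5, a1, a2, a3, a4, map_add, inner_add_right]

theorem zero (Y : H) : A 0 Y = 0 := by
  have := h.add 0 0 Y
  rw [add_zero] at this
  exact left_eq_add.1 this

theorem zero' (X : H) : A X 0 = 0 := by
  have := h.add' X 0 0
  rw [add_zero] at this
  exact left_eq_add.1 this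

variable (r : Rz T Gr J)
include r

theorem sm {a : L0 m} (ha : MemLp a ∞ m) (X Y : H) : A (T.sm a X) Y = a * A X Y := by
  rw [eq_iff_ae]
  filter_upwards [h (T.sm a X) Y, h X Y, r.sm a ha X, mul_ae a (A X Y)] with x a1 a2 a3 a4
  rw [a4, a1, a2, a3, map_smul, ContinuousLinearMap.smul_apply, real_inner_smul_right]

theorem sm' {a : L0 m} (ha : MemLp a ∞ m) (X Y : H) : A X (T.sm a Y) = a * A X Y := by
  rw [eq_iff_ae]
  filter_upwards [h X (T.sm a Y), h X Y, r.sm a ha Y, mul_ae a (A X Y)] with x a1 a2 a3 a4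
  rw [a4, a1, a2, a3, map_smul, real_inner_smul_right]

theorem io_left {l : List (L0 m × L0 m)} (hl : ∀ p ∈ l, MemLp p.1 ∞ m) (Y : H) :
    A (T.io l) Y = (l.map fun p => p.1 * A (T.grad p.2) Y).sum := by
  induction l with
  | nil => rw [T.io_nil, h.zero]; simp
  | cons p l ih =>
    rw [T.io_cons, h.add, h.sm r (hl p List.mem_cons_self),
      ih fun q hq => hl q (List.mem_cons_of_mem _ hq)]
    simp

theorem io_right {l : List (L0 m × L0 m)} (hl : ∀ p ∈ l, MemLp p.1 ∞ m) (X : H) :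
    A X (T.io l) = (l.map fun p => p.1 * A X (T.grad p.2)).sum := by
  induction l with
  | nil => rw [T.io_nil, h.zero']; simp
  | cons p l ih =>
    rw [T.io_cons, h.add', h.sm' r (hl p List.mem_cons_self),
      ih fun q hq => hl q (List.mem_cons_of_mem _ hq)]
    simp

end Rep

theorem ten_one {A : H → H → L0 m} (hA : T.IsTen A) : ∃ τ : M → ℝ, MemLp τ 2 m ∧
    ∀ X Y, ∀ᵐ x ∂m, A X Y x ^ 2 ≤ τ x ^ 2 * (T.ip X X x * T.ip Y Y x) := by
  obtain ⟨τ, hτ, h⟩ := hA
  refine ⟨τ, hτ, fun X Y => ?_⟩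
  filter_upwards [h 1 (fun _ => X) (fun _ => Y)] with x hx
  simpa using hx fun _ => 1

theorem ten_mem2 {A : H → H → L0 m} (hA : T.IsTen A) {X Y : H} (hX : MemLp (T.ip X X) ∞ m)
    (hY : MemLp (T.ip Y Y) ∞ m) : MemLp (A X Y) 2 m := by
  obtain ⟨τ, hτ, h⟩ := ten_one hA
  obtain ⟨K, hK⟩ := mem_top_iff.1 (mem_mul_top hX hY)
  refine (hτ.const_mul √|K|).mono (A X Y).aestronglyMeasurable ?_
  filter_upwards [h X Y, hK, mul_ae (T.ip X X) (T.ip Y Y)] with x a1 a2 a3
  rw [a3] at a2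
  rw [Real.norm_eq_abs, Real.norm_eq_abs]
  refine sq_le_sq.1 (a1.trans ?_)
  rw [mul_pow, Real.sq_sqrt (abs_nonneg K), mul_comm |K|]
  exact mul_le_mul_of_nonneg_left ((le_abs_self _).trans (a2.trans (le_abs_self K))) (sq_nonneg _)

/-- a tensor on a square integrable and a bounded field is integrable -/
theorem ten_mem1 (r : Rz T Gr J) {A : H → H → L0 m} (hA : T.IsTen A) (X : H) {Y : H}
    (hY : MemLp (T.ip Y Y) ∞ m) : MemLp (A X Y) 1 m := by
  obtain ⟨τ, hτ, h⟩ := ten_one hA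
  obtain ⟨K, hK⟩ := mem_top_iff.1 hY
  have h1 : MemLp (fun x => ‖J X x‖ * τ x) 1 m := MemLp.mul hτ (Lp.memLp (J X)).norm
  refine (h1.const_mul √|K|).mono (A X Y).aestronglyMeasurable ?_
  filter_upwards [h X Y, hK, r.ip X X] with x a1 a2 a3
  rw [Real.norm_eq_abs, Real.norm_eq_abs]
  refine sq_le_sq.1 (a1.trans ?_)
  rw [mul_pow, Real.sq_sqrt (abs_nonneg K), a3, real_inner_self_eq_norm_sq, mul_pow]
  have := (le_abs_self _).trans (a2.trans (le_abs_self K))
  nlinarith [mul_nonneg (sq_nonneg (τ x)) (sq_nonneg ‖J X x‖)]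

end Vale.Agent.P233G
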